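import Vale.Agent.Lib.P058.Trans

/-! # P058: subtransitive finite sets are spherical -/

namespace Vale.Agent.Results.P058.SubtransitiveSpherical
open _root_.P058

theorem result :
    (∀ (n : ℕ) (X : Finset (En n)), Transitive X → ∃ (z : En n) (ρ : ℝ), ∀ x ∈ X, dist x z = ρ) ∧
    (∀ (d : ℕ) (A : Finset (En d)), Subtransitive A → Spherical A) ∧
    (∀ (d : ℕ) (A B : Finset (En d)), B ⊆ A → Subtransitive A → Subtransitive B) := by
  refine ⟨fun n X hT => ?_, fun d A h => spherical_of_subtransitive A h, ?_⟩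
  · obtain ⟨ρ, hρ⟩ := transitive_sphere X hT
    exact ⟨cen X, ρ, hρ⟩
  · rintro d A B hBA ⟨n, X, g, hT, hg, hX⟩
    exact ⟨n, X, g, hT, fun a ha b hb => hg a (hBA ha) b (hBA hb), fun a ha => hX a (hBA ha)⟩

end Vale.Agent.Results.P058.SubtransitiveSpherical
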